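import Vale.Agent.P365.X5.Fin
import Vale.Agent.P365.InfB.Box

set_option linter.all false

/-!
# P365 X5 (large energies), part 3: the finite volume hypothesis `FMboxR` at large energies,
uniformly over the laws `ν ≤ K • Cauchy`, `c ≤ ν [-1, 1]`.
-/

namespace P365L.X5

open MeasureTheory ProbabilityTheory Complex Filter Topology Set
open P365L.Inf P365L.InfB
open scoped ENNReal NNReal Real

theorem AL_01 (M : ℕ) (x y : Lam M) : AL M x y = 0 ∨ AL M x y = 1 := adj_eq_one_or x y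

theorem AL_row (M : ℕ) (x : Lam M) : ∑ w, AL M x w ≤ 4 := by
  classical
  have h1 : ∑ w, AL M x w = ((Finset.univ.filter fun w : Lam M => AL M x w ≠ 0).card : ℝ) := by
    rw [Finset.card_eq_sum_ones, Nat.cast_sum, Finset.sum_filter]
    refine Finset.sum_congr rfl fun w _ => ?_
    rcases AL_01 M x w with h | h <;> simp [h]
  rw [h1]
  have h2 : (Finset.univ.filter fun w : Lam M => AL M x w ≠ 0).card ≤ (nbr (x : Site)).card := by
    refine Finset.card_le_card_of_injOn (fun w : Lam M => (w : Site)) ?_ ?_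
    · intro w hw
      exact mem_nbr_of_adj (Finset.mem_filter.1 (Finset.mem_coe.1 hw)).2
    · intro a _ b _ hab
      exact Subtype.ext hab
  exact_mod_cast h2.trans (card_nbr _)

theorem AL_lip (M : ℕ) (x w : Lam M) (h : AL M x w ≠ 0) :
    n1 (x : Site) ≤ n1 (w : Site) + 1 := by
  have h1 := adj_ne_zero h
  unfold n1
  omega

/-- **Localization at large energies**, uniformly over the laws `ν ≤ K • Cauchy`,
`c ≤ ν [-1, 1]` -/
theorem fmboxR_large (K : ℝ≥0∞) (hK : K ≠ ∞) (c : ℝ≥0∞) (hc : c ≠ 0) :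
    ∃ E₀ : ℝ, 0 < E₀ ∧ ∀ (ν : Measure ℝ) [IsProbabilityMeasure ν], ν ≤ K • nu →
      c ≤ ν (Icc (-1) 1) → ∀ E : ℝ, E₀ ≤ |E| → FMboxR ν E := by
  obtain ⟨E₀, hE₀, H⟩ := decouple K hK c hc (s := 1 / 4) (by norm_num) (by norm_num)
  refine ⟨E₀, hE₀, fun ν _ hν hlow E hE => ?_⟩
  refine ⟨1 / 4, 1, Real.log (5 / 4), 1, by norm_num, by norm_num,
    Real.log_pos (by norm_num), one_pos, fun η hη hη1 y => Eventually.of_forall fun M hy => ?_⟩
  have h1 := fm_decay (ν := ν) (AL_symm M) (AL_01 M) (AL_row M) (s := 1 / 4) (by norm_num)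
    (by norm_num) (E := E) (H ν hν hlow E hE) (z := E + η * I) (by simpa using hη) (by simp)
    (oL M) (fun x => n1 (x : Site)) (by simp [n1, oL]) (AL_lip M) ⟨y, hy⟩
  have h2 : (1 : ℝ) * Real.exp (-Real.log (5 / 4) * n1 y) = (4 / 5) ^ n1 y := by
    rw [one_mul, mul_comm, ← Real.log_inv, Real.exp_nat_mul, Real.exp_log (by norm_num)]
    norm_num
  rw [h2]
  exact h1

/-- the weight `C/(1+u²)` is a multiple of the Cauchy law -/
theorem withDensity_eq (C : ℝ) (hC : 0 ≤ C) :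
    (volume.withDensity fun u : ℝ => ENNReal.ofReal (C / (1 + u ^ 2))) =
      ENNReal.ofReal (C * π) • nu := by
  have h1 : nu = volume.withDensity (cauchyPDF 0 1) :=
    cauchyMeasure_of_scale_ne_zero 0 one_ne_zero
  have h2 : Measurable fun u : ℝ => ENNReal.ofReal (C / (1 + u ^ 2)) := by fun_prop
  rw [h1, ← withDensity_smul _ (measurable_cauchyPDF 0 1)]
  congr 1
  funext u
  rw [Pi.smul_apply, smul_eq_mul, cauchyPDF, ← ENNReal.ofReal_mul (by positivity),
    cauchyPDFReal_def']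
  congr 1
  have h3 : (0 : ℝ) < 1 + u ^ 2 := by positivity
  simp
  field_simp

/-- the same for `ν ≤ K • Cauchy`, `c • Leb|[-1,1] ≤ ν` with real constants -/
theorem fmboxR_large' (K c : ℝ) (hc : 0 < c) :
    ∃ E₀ : ℝ, 0 < E₀ ∧ ∀ (ν : Measure ℝ) [IsProbabilityMeasure ν], ν ≤ ENNReal.ofReal K • nu →
      ENNReal.ofReal c • volume.restrict (Icc (-1) 1) ≤ ν → ∀ E : ℝ, E₀ ≤ |E| →
        FMboxR ν E := by
  obtain ⟨E₀, hE₀, H⟩ := fmboxR_large (ENNReal.ofReal K) ENNReal.ofReal_ne_top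
    (ENNReal.ofReal c) (by simpa using hc)
  refine ⟨E₀, hE₀, fun ν _ hν hlow => H ν hν ?_⟩
  have h1 := hlow (Icc (-1) 1)
  rw [Measure.smul_apply, Measure.restrict_apply_self, Real.volume_Icc, smul_eq_mul] at h1
  refine le_trans ?_ h1
  calc ENNReal.ofReal c = ENNReal.ofReal c * 1 := (mul_one _).symm
    _ ≤ ENNReal.ofReal c * ENNReal.ofReal (1 - -1) := by
        gcongr
        rw [← ENNReal.ofReal_one]
        exact ENNReal.ofReal_le_ofReal (by norm_num)

/-- the same for `ν ≤ C/(1+u²) du`, `c • Leb|[-1,1] ≤ ν` -/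
theorem fmboxR_large'' (C c : ℝ) (hC : 0 ≤ C) (hc : 0 < c) :
    ∃ E₀ : ℝ, 0 < E₀ ∧ ∀ (ν : Measure ℝ) [IsProbabilityMeasure ν],
      ν ≤ (volume.withDensity fun u : ℝ => ENNReal.ofReal (C / (1 + u ^ 2))) →
      ENNReal.ofReal c • volume.restrict (Icc (-1) 1) ≤ ν → ∀ E : ℝ, E₀ ≤ |E| →
        FMboxR ν E := by
  rw [withDensity_eq C hC]
  exact fmboxR_large' (C * π) c hc

end P365L.X5
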