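import Vale.Agent.P365.S6.Kol
import Vale.Agent.P365.Bdl.B1

set_option linter.all false

/-!
# P365 X5 (large energies), part 1: the decoupling inequality for a law dominated by a multiple of
the Cauchy law.
-/

namespace P365L.X5

open MeasureTheory ProbabilityTheory Complex Filter Topology Set
open scoped ENNReal NNReal Real

/-- fractional moment of the Cauchy law seen from a point of the upper half plane -/
theorem cau_frac {a : ℂ} (ha : 0 < a.im) {s : ℝ} (h0 : 0 < s) (h1 : s < 1) :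
    Integrable (fun t : ℝ => ‖(t : ℂ) - a‖ ^ (-s)) nu ∧
      ∫ t : ℝ, ‖(t : ℂ) - a‖ ^ (-s) ∂nu ≤ (Real.cos (π * s / 2))⁻¹ * ‖a + I‖ ^ (-s) := by
  have hc := P365S6.cos_pos h0 h1
  have hne : ∀ z : ℂ, z.im ≤ 0 → z - a ≠ 0 := by
    intro z hz h
    have := congrArg Complex.im h
    simp only [sub_im, zero_im] at this
    linarith
  have hlow : ∀ z : ℂ, z.im ≤ 0 → a.im ≤ ‖z - a‖ := by
    intro z hz
    have h2 := Complex.abs_im_le_norm (z - a)
    rw [sub_im] at h2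
    have h3 : a.im - z.im ≤ |z.im - a.im| := by
      rw [abs_sub_comm]
      exact le_abs_self _
    linarith
  set w : ℂ → ℂ := fun z => -I * (z - a)⁻¹ with hw
  have hwre : ∀ z : ℂ, z.im ≤ 0 → 0 < (w z).re := by
    intro z hz
    have h2 : (w z).re = ((z - a)⁻¹).im := by
      simp only [hw, neg_mul, neg_re, mul_re, I_re, zero_mul, I_im, one_mul, zero_sub, neg_neg]
    rw [h2, inv_im]
    have h3 : 0 < Complex.normSq (z - a) := Complex.normSq_pos.2 (hne z hz)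
    refine div_pos ?_ h3
    rw [sub_im]
    linarith
  have hwn : ∀ z : ℂ, ‖w z‖ = ‖z - a‖⁻¹ := by
    intro z
    simp only [hw, norm_mul, norm_neg, norm_I, one_mul, norm_inv]
  set F : ℂ → ℂ := fun z => w z ^ (s : ℂ) with hF
  have hwd : ∀ z : ℂ, z.im ≤ 0 → DifferentiableAt ℂ w z := by
    intro z hz
    exact ((differentiableAt_id.sub_const a).inv (hne z hz)).const_mul (-I)
  have hFd : ∀ z : ℂ, z.im ≤ 0 → DifferentiableAt ℂ F z := fun z hz =>
    (hwd z hz).cpow_const (Or.inl (hwre z hz))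
  have hFn : ∀ z : ℂ, z.im ≤ 0 → ‖F z‖ = ‖z - a‖ ^ (-s) := by
    intro z hz
    have h2 : w z ≠ 0 := by
      intro h
      have := hwre z hz
      rw [h] at this
      simp at this
    rw [hF]
    simp only
    rw [P365S6.norm_cpow_real h2, hwn, Real.inv_rpow (norm_nonneg _), Real.rpow_neg (norm_nonneg _)]
  have hFb : ∀ z : ℂ, z.im ≤ 0 → ‖F z‖ ≤ a.im ^ (-s) := by
    intro z hz
    rw [hFn z hz]
    exact Real.rpow_le_rpow_of_nonpos ha (hlow z hz) (by linarith)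
  have hmean := P365S6.nu_mean (F := F) (fun z hz => (hFd z (le_of_lt hz)).differentiableWithinAt)
    (fun z hz => (hFd z hz).continuousAt.continuousWithinAt) hFb
  have hcont : Continuous fun t : ℝ => F t := by
    rw [continuous_iff_continuousAt]
    intro t
    exact ((hFd t (by simp)).continuousAt).comp Complex.continuous_ofReal.continuousAt
  have hint : Integrable (fun t : ℝ => F t) nu :=
    Integrable.of_bound hcont.aestronglyMeasurable (a.im ^ (-s)) (Eventually.of_forall fun t =>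
      hFb t (by simp))
  have hint2 : Integrable (fun t : ℝ => ‖(t : ℂ) - a‖ ^ (-s)) nu := by
    refine hint.norm.congr (Eventually.of_forall fun t => ?_)
    exact hFn t (by simp)
  refine ⟨hint2, ?_⟩
  have h2 : ∫ t : ℝ, Real.cos (π * s / 2) * ‖(t : ℂ) - a‖ ^ (-s) ∂nu ≤ ∫ t : ℝ, (F t).re ∂nu := by
    refine integral_mono (hint2.const_mul _) hint.re fun t => ?_
    have h3 := P365S6.re_cpow_ge (hwre t (by simp)) h0.le h1.le
    rw [hwn, Real.inv_rpow (norm_nonneg _), ← Real.rpow_neg (norm_nonneg _)] at h3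
    exact h3
  rw [integral_const_mul] at h2
  have h4 : ∫ t : ℝ, (F t).re ∂nu = (F (-I)).re := by
    rw [← hmean]
    have := integral_re (𝕜 := ℂ) hint
    simpa using this
  rw [h4] at h2
  have h5 : (F (-I)).re ≤ ‖a + I‖ ^ (-s) := by
    refine (Complex.re_le_norm _).trans (le_of_eq ?_)
    rw [hFn (-I) (by simp)]
    congr 1
    rw [← norm_neg]
    congr 1
    ring
  rw [inv_mul_eq_div, le_div_iff₀ hc, mul_comm]
  exact h2.trans h5

theorem norm_add_I {a : ℂ} (ha : 0 < a.im) : (1 + ‖a‖) / 2 ≤ ‖a + I‖ := by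
  have h1 : ‖a‖ ≤ ‖a + I‖ := by
    rw [← abs_of_nonneg (norm_nonneg a), ← abs_of_nonneg (norm_nonneg (a + I)), ← sq_le_sq,
      ← Complex.normSq_eq_norm_sq, ← Complex.normSq_eq_norm_sq, Complex.normSq_apply,
      Complex.normSq_apply]
    simp only [add_re, I_re, add_zero, add_im, I_im]
    nlinarith
  have h2 : 1 ≤ ‖a + I‖ := by
    have := Complex.abs_im_le_norm (a + I)
    rw [add_im, I_im, abs_of_pos (by linarith)] at this
    linarith
  linarith

/-- Lebesgue form -/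
theorem cau_frac_lint {a : ℂ} (ha : 0 < a.im) {s : ℝ} (h0 : 0 < s) (h1 : s < 1) :
    ∫⁻ t : ℝ, ENNReal.ofReal (‖(t : ℂ) - a‖ ^ (-s)) ∂nu ≤
      ENNReal.ofReal ((Real.cos (π * s / 2))⁻¹ * 2 * (1 + ‖a‖) ^ (-s)) := by
  obtain ⟨h2, h3⟩ := cau_frac ha h0 h1
  rw [← ofReal_integral_eq_lintegral_ofReal h2 (Eventually.of_forall fun t => by positivity)]
  refine ENNReal.ofReal_le_ofReal (h3.trans ?_)
  rw [mul_assoc]
  refine mul_le_mul_of_nonneg_left ?_ (inv_nonneg.2 (P365S6.cos_pos h0 h1).le)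
  have h4 := norm_add_I ha
  have h5 : 0 < (1 + ‖a‖) / 2 := by positivity
  calc ‖a + I‖ ^ (-s) ≤ ((1 + ‖a‖) / 2) ^ (-s) :=
        Real.rpow_le_rpow_of_nonpos h5 h4 (by linarith)
    _ = 2 ^ s * (1 + ‖a‖) ^ (-s) := by
        rw [Real.div_rpow (by positivity) (by norm_num), Real.rpow_neg (by norm_num : (0:ℝ) ≤ 2),
          div_inv_eq_mul, mul_comm]
    _ ≤ 2 * (1 + ‖a‖) ^ (-s) := by
        refine mul_le_mul_of_nonneg_right ?_ (by positivity)
        calc (2 : ℝ) ^ s ≤ 2 ^ (1 : ℝ) := Real.rpow_le_rpow_of_exponent_le (by norm_num) h1.le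
          _ = 2 := Real.rpow_one _

/-- **Decoupling** at large energies, uniformly over the laws `ν ≤ K • Cauchy`,
`c ≤ ν [-1, 1]`. -/
theorem decouple (K : ℝ≥0∞) (hK : K ≠ ∞) (c : ℝ≥0∞) (hc : c ≠ 0) {s : ℝ} (h0 : 0 < s)
    (h1 : s < 1 / 2) : ∃ E₀ : ℝ, 0 < E₀ ∧ ∀ ν : Measure ℝ, ν ≤ K • nu →
      c ≤ ν (Icc (-1) 1) → ∀ E : ℝ, E₀ ≤ |E| → ∀ a : ℂ, 0 < a.im →
        5 * ∫⁻ t : ℝ, ENNReal.ofReal (‖(t : ℂ) - a‖ ^ (-s)) ∂ν ≤
          ∫⁻ t : ℝ, ENNReal.ofReal (|t - E| ^ s * ‖(t : ℂ) - a‖ ^ (-s)) ∂ν := by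
  classical
  -- constants
  set D : ℝ := (Real.cos (π * (2 * s) / 2))⁻¹ * 2 with hD
  have hcos := P365S6.cos_pos (s := 2 * s) (by linarith) (by linarith)
  have hD0 : 0 < D := by positivity
  obtain ⟨c', hc', hc'c, hc'top⟩ : ∃ c' : ℝ≥0∞, c' ≠ 0 ∧ c' ≤ c ∧ c' ≠ ∞ :=
    ⟨min c 1, by simp [hc], min_le_left _ _, by simp⟩
  obtain ⟨K', hK', hKK', hK'top⟩ : ∃ K' : ℝ≥0∞, K' ≠ 0 ∧ K ≤ K' ∧ K' ≠ ∞ :=
    ⟨K + 1, by simp, le_self_add, by simp [hK]⟩
  -- the threshold for the tail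
  obtain ⟨q, hq0, hq⟩ : ∃ q : ℝ, 0 < q ∧ K' * (ENNReal.ofReal q ^ (1 / 2 : ℝ) *
      ENNReal.ofReal D ^ (1 / 2 : ℝ)) ≤ c' := by
    have hp : 0 < (c' / K').toReal := by
      rw [ENNReal.toReal_pos_iff]
      exact ⟨ENNReal.div_pos hc' hK'top, ENNReal.div_lt_top hc'top hK'⟩
    refine ⟨(c' / K').toReal ^ 2 / D, by positivity, ?_⟩
    rw [← ENNReal.mul_rpow_of_nonneg _ _ (by norm_num : (0:ℝ) ≤ 1 / 2),
      ← ENNReal.ofReal_mul (by positivity), div_mul_cancel₀ _ hD0.ne',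
      ENNReal.ofReal_rpow_of_nonneg (by positivity) (by norm_num), ← Real.sqrt_eq_rpow,
      Real.sqrt_sq hp.le, ENNReal.ofReal_toReal (ENNReal.div_lt_top hc'top hK').ne]
    exact ENNReal.mul_div_le
  obtain ⟨T, hT0, hT⟩ := nu_tail q hq0
  set R₀ : ℝ := max T (max 1 (10 ^ (1 / s))) with hR₀
  have hR1 : 1 ≤ R₀ := (le_max_left _ _).trans (le_max_right _ _)
  have hR10 : (10 : ℝ) ^ (1 / s) ≤ R₀ := (le_max_right _ _).trans (le_max_right _ _)
  refine ⟨2 * R₀, by positivity, fun ν hν hlow E hE a ha => ?_⟩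
  set R : ℝ := |E| / 2 with hR
  have hRR : R₀ ≤ R := by rw [hR]; linarith
  have hRT : T ≤ R := (le_max_left _ _).trans hRR
  set f : ℝ → ℝ≥0∞ := fun t => ENNReal.ofReal (‖(t : ℂ) - a‖ ^ (-s)) with hf
  have hfm : Measurable f := by
    rw [hf]
    fun_prop
  set S : Set ℝ := {t : ℝ | |t| ≤ R} with hS
  have hSm : MeasurableSet S := measurableSet_le measurable_norm measurable_const
  have hSc : Sᶜ = {t : ℝ | R < |t|} := by
    ext t
    simp [hS]
  set B : ℝ≥0∞ := ENNReal.ofReal ((1 + ‖a‖) ^ (-s)) with hB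
  have hapos : 0 < 1 + ‖a‖ := by positivity
  -- the main part from below
  have l1 : c' * B ≤ ∫⁻ t in S, f t ∂ν := by
    have hsub : Icc (-1 : ℝ) 1 ⊆ S := by
      intro t ht
      have : |t| ≤ 1 := abs_le.2 ht
      show |t| ≤ R
      linarith
    calc c' * B ≤ ν (Icc (-1) 1) * B := by gcongr; exact hc'c.trans hlow
      _ = ∫⁻ t in Icc (-1 : ℝ) 1, B ∂ν := by
          rw [lintegral_const, Measure.restrict_apply_univ, mul_comm]
      _ ≤ ∫⁻ t in Icc (-1 : ℝ) 1, f t ∂ν := by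
          refine setLIntegral_mono hfm fun t ht => ENNReal.ofReal_le_ofReal ?_
          have h2 : |t| ≤ 1 := abs_le.2 ht
          have h3 : ‖(t : ℂ) - a‖ ≤ 1 + ‖a‖ := by
            refine (norm_sub_le _ _).trans ?_
            rw [Complex.norm_real, Real.norm_eq_abs]
            linarith
          have h4 : 0 < ‖(t : ℂ) - a‖ := by
            rw [norm_pos_iff]
            intro h
            have := congrArg Complex.im h
            simp at this
            linarith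
          exact Real.rpow_le_rpow_of_nonpos h4 h3 (by linarith)
      _ ≤ ∫⁻ t in S, f t ∂ν := lintegral_mono_set hsub
  -- the tail from above
  have l2 : ∫⁻ t in Sᶜ, f t ∂ν ≤ c' * B := by
    have e1 : ∫⁻ t in Sᶜ, f t ∂ν ≤ K' * ∫⁻ t in Sᶜ, f t ∂nu := by
      have h2 : ν.restrict Sᶜ ≤ K' • nu.restrict Sᶜ := by
        rw [← Measure.restrict_smul]
        refine Measure.restrict_mono subset_rfl (hν.trans ?_)
        intro t
        simp only [Measure.smul_apply, smul_eq_mul]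
        gcongr
      calc ∫⁻ t in Sᶜ, f t ∂ν ≤ ∫⁻ t, f t ∂(K' • nu.restrict Sᶜ) := lintegral_mono' h2 le_rfl
        _ = K' * ∫⁻ t in Sᶜ, f t ∂nu := by rw [lintegral_smul_measure, smul_eq_mul]
    have e2 : ∫⁻ t in Sᶜ, f t ∂nu ≤ (nu Sᶜ) ^ (1 / 2 : ℝ) *
        (∫⁻ t, ENNReal.ofReal (‖(t : ℂ) - a‖ ^ (-(2 * s))) ∂nu) ^ (1 / 2 : ℝ) := by
      have h2 := ENNReal.lintegral_mul_le_Lp_mul_Lq (nu.restrict Sᶜ)
        (Real.HolderConjugate.two_two) (f := fun _ => 1) (g := f) aemeasurable_const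
        hfm.aemeasurable
      have h3 : ∀ t : ℝ, f t ^ (2 : ℝ) = ENNReal.ofReal (‖(t : ℂ) - a‖ ^ (-(2 * s))) := by
        intro t
        rw [hf]
        simp only
        rw [ENNReal.ofReal_rpow_of_nonneg (by positivity) (by norm_num), ← Real.rpow_mul
          (norm_nonneg _)]
        congr 2
        ring
      simp only [Pi.mul_apply, one_mul, ENNReal.one_rpow, lintegral_const,
        Measure.restrict_apply_univ, h3] at h2
      refine h2.trans ?_
      gcongr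
      exact Measure.restrict_le_self
    have e3 : nu Sᶜ ≤ ENNReal.ofReal q := by
      refine (measure_mono ?_).trans hT
      rw [hSc]
      intro t ht
      exact lt_of_le_of_lt hRT ht
    have e4 : (∫⁻ t, ENNReal.ofReal (‖(t : ℂ) - a‖ ^ (-(2 * s))) ∂nu) ^ (1 / 2 : ℝ) ≤
        ENNReal.ofReal D ^ (1 / 2 : ℝ) * B := by
      have h2 := cau_frac_lint ha (s := 2 * s) (by linarith) (by linarith)
      rw [← hD] at h2
      calc (∫⁻ t, ENNReal.ofReal (‖(t : ℂ) - a‖ ^ (-(2 * s))) ∂nu) ^ (1 / 2 : ℝ)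
          ≤ (ENNReal.ofReal (D * (1 + ‖a‖) ^ (-(2 * s)))) ^ (1 / 2 : ℝ) := by gcongr
        _ = _ := by
            rw [ENNReal.ofReal_mul hD0.le, ENNReal.mul_rpow_of_nonneg _ _ (by norm_num)]
            congr 1
            rw [ENNReal.ofReal_rpow_of_nonneg (by positivity) (by norm_num), hB,
              ← Real.rpow_mul hapos.le]
            congr 2
            ring
    calc ∫⁻ t in Sᶜ, f t ∂ν ≤ K' * ∫⁻ t in Sᶜ, f t ∂nu := e1
      _ ≤ K' * (ENNReal.ofReal q ^ (1 / 2 : ℝ) * (ENNReal.ofReal D ^ (1 / 2 : ℝ) * B)) := by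
          gcongr
          refine e2.trans ?_
          gcongr
      _ = K' * (ENNReal.ofReal q ^ (1 / 2 : ℝ) * ENNReal.ofReal D ^ (1 / 2 : ℝ)) * B := by ring
      _ ≤ c' * B := by gcongr
  have l3 : ∫⁻ t, f t ∂ν ≤ 2 * ∫⁻ t in S, f t ∂ν := by
    rw [← lintegral_add_compl f hSm, two_mul]
    exact add_le_add le_rfl (l2.trans l1)
  have hR10' : (10 : ℝ) ≤ R ^ s := by
    have h2 : ((10 : ℝ) ^ (1 / s)) ^ s = 10 := by
      rw [← Real.rpow_mul (by norm_num), one_div_mul_cancel h0.ne', Real.rpow_one]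
    rw [← h2]
    exact Real.rpow_le_rpow (by positivity) (hR10.trans hRR) h0.le
  calc 5 * ∫⁻ t, f t ∂ν ≤ 5 * (2 * ∫⁻ t in S, f t ∂ν) := by gcongr
    _ = 10 * ∫⁻ t in S, f t ∂ν := by rw [← mul_assoc]; norm_num
    _ = ∫⁻ t in S, 10 * f t ∂ν := (lintegral_const_mul _ hfm).symm
    _ ≤ ∫⁻ t in S, ENNReal.ofReal (|t - E| ^ s * ‖(t : ℂ) - a‖ ^ (-s)) ∂ν := by
        refine setLIntegral_mono (by fun_prop) fun t ht => ?_
        have h2 : |t| ≤ R := ht
        have h3 : R ≤ |t - E| := by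
          have h4 : |E| - |t| ≤ |t - E| := by
            rw [abs_sub_comm]
            exact abs_sub_abs_le_abs_sub E t
          have h5 : |E| = 2 * R := by rw [hR]; ring
          linarith
        have h4 : (10 : ℝ) ≤ |t - E| ^ s :=
          hR10'.trans (Real.rpow_le_rpow (by linarith) h3 h0.le)
        rw [ENNReal.ofReal_mul (by positivity)]
        gcongr
        rw [show (10 : ℝ≥0∞) = ENNReal.ofReal 10 by simp]
        exact ENNReal.ofReal_le_ofReal h4
    _ ≤ _ := setLIntegral_le_lintegral _ _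

end P365L.X5
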