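import Vale.Agent.P365.X5.Dec

set_option linter.all false

/-!
# P365 X5 (large energies), part 2: exponential decay of fractional moments at large energies, on a
finite graph of degree at most 4, for iid potentials of law `ν`.
-/

namespace P365L.X5

open MeasureTheory ProbabilityTheory Complex Filter Topology Set
open scoped ENNReal NNReal Real

variable {ι : Type*} [Fintype ι] [DecidableEq ι] {A : Matrix ι ι ℝ}

/-- potential minus the complex energy `z` -/
noncomputable def Wv (V : ι → ℝ) (z : ℂ) (x : ι) : ℂ := (V x : ℂ) - z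

theorem Wv_im (V : ι → ℝ) {z : ℂ} (x : ι) : (Wv V z x).im = -z.im := by simp [Wv]

theorem Wv_neg (V : ι → ℝ) {z : ℂ} (hz : 0 < z.im) (x : ι) : (Wv V z x).im < 0 := by
  rw [Wv_im]; linarith

/-- the Green function as a function of one potential -/
theorem Gr_one (hA : A.IsSymm) {z : ℂ} (hz : 0 < z.im) (V : ι → ℝ) (x y : ι) :
    ∃ (a : ℂ) (b : ℂ), 0 < a.im ∧ ∀ t : ℝ,
      Gr A (Wv (Function.update V x t) z) x y = b / ((t : ℂ) - a) := by
  have hW : ∀ w, (Wv V z w).im < 0 := Wv_neg V hz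
  have hfl := Gr_flux hA hW x
  have hne : Gr A (Wv V z) x x ≠ 0 := by
    have h1 := Kmat_mulVec_Gr hA hW x x
    intro h0
    have h2 : (Gr A (Wv V z) x x).im = 0 := by rw [h0]; simp
    rw [hfl] at h2
    have h3 : ∀ w ∈ (Finset.univ : Finset ι), 0 ≤ (-(Wv V z w).im) * ‖Gr A (Wv V z) w x‖ ^ 2 :=
      fun w _ => mul_nonneg (by linarith [hW w]) (sq_nonneg _)
    have h4 := (Finset.sum_eq_zero_iff_of_nonneg h3).1 h2
    have h5 : (fun w => Gr A (Wv V z) w x) = 0 := by
      funext w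
      have h6 := h4 w (Finset.mem_univ w)
      have h7 : ‖Gr A (Wv V z) w x‖ ^ 2 = 0 :=
        (mul_eq_zero.1 h6).resolve_left (by have := hW w; linarith)
      simpa using h7
    rw [h5, Matrix.mulVec_zero, if_pos rfl] at h1
    exact zero_ne_one h1
  have him : 0 < (Gr A (Wv V z) x x).im := by
    rw [hfl]
    refine lt_of_lt_of_le ?_ (Finset.single_le_sum
      (f := fun w => (-(Wv V z w).im) * ‖Gr A (Wv V z) w x‖ ^ 2)
      (fun w _ => mul_nonneg (by linarith [hW w]) (sq_nonneg _)) (Finset.mem_univ x))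
    have h3 : 0 < ‖Gr A (Wv V z) x x‖ := norm_pos_iff.2 hne
    have h4 : 0 < -(Wv V z x).im := by linarith [hW x]
    positivity
  set g := Gr A (Wv V z) x x with hg
  refine ⟨(V x : ℂ) - g⁻¹, Gr A (Wv V z) x y / g, ?_, fun t => ?_⟩
  · rw [sub_im, ofReal_im, zero_sub, inv_im, neg_div, neg_neg]
    exact div_pos him (Complex.normSq_pos.2 hne)
  · have hup : Wv (Function.update V x t) z =
        Function.update (Wv V z) x (Wv V z x + ((t : ℂ) - V x)) := by
      funext w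
      by_cases hw : w = x
      · subst hw
        simp only [Wv, Function.update_self]
        ring
      · simp only [Wv, Function.update_of_ne hw]
    have him2 : (Wv V z x + ((t : ℂ) - V x)).im < 0 := by
      rw [add_im, sub_im, ofReal_im, ofReal_im]
      linarith [hW x]
    obtain ⟨h1, h2⟩ := Gr_update hA hW x ((t : ℂ) - V x) him2
    rw [hup, h2 x y, ← hg]
    rw [← hg] at h1
    have h3 : (t : ℂ) - ((V x : ℂ) - g⁻¹) = (1 + ((t : ℂ) - V x) * g) / g := by
      field_simp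
      ring
    rw [h3, div_div_div_cancel_right₀ hne, eq_div_iff h1, sub_mul, mul_assoc,
      div_mul_cancel₀ _ h1]
    ring

theorem measurable_Wv {Ω : Type*} [MeasurableSpace Ω] (V : Ω → ι → ℝ) (z : ℂ)
    (hV : ∀ x, Measurable fun ω => V ω x) (x y : ι) :
    Measurable fun ω => Gr A (Wv (V ω) z) x y := by
  refine measurable_Gr (fun ω => Wv (V ω) z) (fun x => ?_) x y
  unfold Wv
  exact (Complex.measurable_ofReal.comp (hV x)).sub_const _

/-- subadditivity of `t ↦ t ^ s` over a finite sum -/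
theorem sum_rpow_le {κ : Type*} (S : Finset κ) (f : κ → ℝ) (hf : ∀ i ∈ S, 0 ≤ f i) {s : ℝ}
    (h0 : 0 < s) (h1 : s ≤ 1) : (∑ i ∈ S, f i) ^ s ≤ ∑ i ∈ S, f i ^ s := by
  classical
  induction S using Finset.induction_on with
  | empty => simp [Real.zero_rpow h0.ne']
  | insert i S hi ih =>
    rw [Finset.sum_insert hi, Finset.sum_insert hi]
    have h2 : ∀ j ∈ S, 0 ≤ f j := fun j hj => hf j (Finset.mem_insert_of_mem hj)
    refine (P365S6.rpow_add_le' (hf i (Finset.mem_insert_self i S)) (Finset.sum_nonneg h2) h0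
      h1).trans ?_
    exact add_le_add le_rfl (ih h2)

/-- the resolvent equation, in fractional form -/
theorem res_eq_le (hA : A.IsSymm) (hA01 : ∀ x y, A x y = 0 ∨ A x y = 1) {z : ℂ} (hz : 0 < z.im)
    {s : ℝ} (h0 : 0 < s) (h1 : s ≤ 1) (V : ι → ℝ) (x y : ι) :
    ‖(V x : ℂ) - z‖ ^ s * ‖Gr A (Wv V z) x y‖ ^ s ≤ (if x = y then 1 else 0) +
      ∑ w, A x w * ‖Gr A (Wv V z) w y‖ ^ s := by
  have hW : ∀ w, (Wv V z w).im < 0 := Wv_neg V hz
  have h2 := Kmat_mulVec_Gr hA hW y x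
  rw [Kmat_mulVec] at h2
  have h3 : ((V x : ℂ) - z) * Gr A (Wv V z) x y = (if x = y then 1 else 0) -
      ∑ w, (A x w : ℂ) * Gr A (Wv V z) w y := by
    rw [← h2]
    simp only [Wv]
    ring
  have hAn : ∀ w, 0 ≤ A x w := by
    intro w
    rcases hA01 x w with h | h <;> rw [h]
    exact zero_le_one
  have h4 : ‖(V x : ℂ) - z‖ * ‖Gr A (Wv V z) x y‖ ≤ (if x = y then 1 else 0) +
      ∑ w, A x w * ‖Gr A (Wv V z) w y‖ := by
    rw [← norm_mul, h3]
    refine (norm_sub_le _ _).trans (add_le_add ?_ ?_)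
    · split_ifs <;> simp
    · refine (norm_sum_le _ _).trans (Finset.sum_le_sum fun w _ => ?_)
      rw [norm_mul, Complex.norm_real, Real.norm_of_nonneg (hAn w)]
  rw [← Real.mul_rpow (norm_nonneg _) (norm_nonneg _)]
  have hif : (0 : ℝ) ≤ (if x = y then 1 else 0) := by split_ifs <;> norm_num
  calc (‖(V x : ℂ) - z‖ * ‖Gr A (Wv V z) x y‖) ^ s
      ≤ ((if x = y then 1 else 0) + ∑ w, A x w * ‖Gr A (Wv V z) w y‖) ^ s :=
        Real.rpow_le_rpow (by positivity) h4 h0.le
    _ ≤ (if x = y then 1 else 0) ^ s + (∑ w, A x w * ‖Gr A (Wv V z) w y‖) ^ s :=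
        P365S6.rpow_add_le' hif (Finset.sum_nonneg fun w _ => mul_nonneg (hAn w) (norm_nonneg _))
          h0 h1
    _ ≤ (if x = y then 1 else 0) + ∑ w, A x w * ‖Gr A (Wv V z) w y‖ ^ s := by
        refine add_le_add (le_of_eq ?_) ?_
        · split_ifs
          · exact Real.one_rpow s
          · exact Real.zero_rpow h0.ne'
        · refine (sum_rpow_le _ _ (fun w _ => mul_nonneg (hAn w) (norm_nonneg _)) h0 h1).trans
            (le_of_eq (Finset.sum_congr rfl fun w _ => ?_))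
          rw [Real.mul_rpow (hAn w) (norm_nonneg _)]
          rcases hA01 x w with h | h <;> rw [h]
          · rw [Real.zero_rpow h0.ne']
          · rw [Real.one_rpow]

/-- the fractional moment -/
noncomputable def fm (A : Matrix ι ι ℝ) (ν : Measure ℝ) (z : ℂ) (s : ℝ) (x y : ι) : ℝ≥0∞ :=
  ∫⁻ V, ENNReal.ofReal (‖Gr A (Wv V z) x y‖ ^ s) ∂(Measure.pi fun _ : ι => ν)

theorem fm_lt_top (hA : A.IsSymm) {ν : Measure ℝ} [IsProbabilityMeasure ν] {z : ℂ}
    (hz : 0 < z.im) {s : ℝ} (h0 : 0 < s) (x y : ι) : fm A ν z s x y ≠ ∞ := by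
  have h1 : fm A ν z s x y ≤ ENNReal.ofReal ((1 / z.im) ^ s) := by
    unfold fm
    calc _ ≤ ∫⁻ V : ι → ℝ, ENNReal.ofReal ((1 / z.im) ^ s) ∂(Measure.pi fun _ : ι => ν) := by
          refine lintegral_mono fun V => ENNReal.ofReal_le_ofReal ?_
          exact Real.rpow_le_rpow (norm_nonneg _)
            (norm_Gr_le hA hz (fun w => (Wv_im V w).le) x y) h0.le
      _ = _ := by simp
  exact ne_top_of_le_ne_top ENNReal.ofReal_ne_top h1

/-- the basic recursive inequality at large energies -/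
theorem fm_rec (hA : A.IsSymm) (hA01 : ∀ x y, A x y = 0 ∨ A x y = 1) {ν : Measure ℝ}
    [IsProbabilityMeasure ν] {s : ℝ} (h0 : 0 < s) (h1 : s ≤ 1) {E : ℝ}
    (hdec : ∀ a : ℂ, 0 < a.im → 5 * ∫⁻ t : ℝ, ENNReal.ofReal (‖(t : ℂ) - a‖ ^ (-s)) ∂ν ≤
          ∫⁻ t : ℝ, ENNReal.ofReal (|t - E| ^ s * ‖(t : ℂ) - a‖ ^ (-s)) ∂ν)
    {z : ℂ} (hz : 0 < z.im) (hzE : z.re = E) (x y : ι) :
    5 * fm A ν z s x y ≤ (if x = y then 1 else 0) +
      ∑ w, ENNReal.ofReal (A x w) * fm A ν z s w y := by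
  have hm : ∀ w, Measurable fun V : ι → ℝ => ENNReal.ofReal (‖Gr A (Wv V z) w y‖ ^ s) := fun w =>
    ((measurable_Wv (A := A) (fun V : ι → ℝ => V) z (fun x => measurable_pi_apply x) w y).norm.pow_const
      s).ennreal_ofReal
  have hmx : Measurable fun V : ι → ℝ => ENNReal.ofReal (‖(V x : ℂ) - z‖ ^ s *
      ‖Gr A (Wv V z) x y‖ ^ s) := by
    refine (Measurable.mul ?_ ?_).ennreal_ofReal
    · exact ((Complex.measurable_ofReal.comp (measurable_pi_apply x)).sub_const _).norm.pow_const s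
    · exact (measurable_Wv (A := A) (fun V : ι → ℝ => V) z (fun x => measurable_pi_apply x) x
        y).norm.pow_const s
  have step1 : 5 * fm A ν z s x y ≤ ∫⁻ V, ENNReal.ofReal (‖(V x : ℂ) - z‖ ^ s *
      ‖Gr A (Wv V z) x y‖ ^ s) ∂(Measure.pi fun _ : ι => ν) := by
    unfold fm
    rw [← lintegral_const_mul _ (hm x)]
    refine lintegral_le_of_lmarginal_le {x} ((hm x).const_mul _) hmx ?_
    intro V
    rw [lmarginal_singleton, lmarginal_singleton]
    simp only
    obtain ⟨a, b, ha, hab⟩ := Gr_one hA hz V x y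
    have e1 : ∀ t : ℝ, ENNReal.ofReal (‖Gr A (Wv (Function.update V x t) z) x y‖ ^ s) =
        ENNReal.ofReal (‖b‖ ^ s) * ENNReal.ofReal (‖(t : ℂ) - a‖ ^ (-s)) := by
      intro t
      rw [hab t, norm_div, Real.div_rpow (norm_nonneg _) (norm_nonneg _),
        ← ENNReal.ofReal_mul (by positivity), Real.rpow_neg (norm_nonneg _), div_eq_mul_inv]
    have e2 : ∀ t : ℝ, ENNReal.ofReal (‖b‖ ^ s) * ENNReal.ofReal (|t - E| ^ s *
        ‖(t : ℂ) - a‖ ^ (-s)) ≤ ENNReal.ofReal (‖(t : ℂ) - z‖ ^ s *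
        ‖Gr A (Wv (Function.update V x t) z) x y‖ ^ s) := by
      intro t
      rw [hab t, norm_div, Real.div_rpow (norm_nonneg _) (norm_nonneg _),
        ← ENNReal.ofReal_mul (by positivity), Real.rpow_neg (norm_nonneg _), div_eq_mul_inv]
      refine ENNReal.ofReal_le_ofReal ?_
      have h2 : |t - E| ≤ ‖(t : ℂ) - z‖ := by
        have := Complex.abs_re_le_norm ((t : ℂ) - z)
        rwa [sub_re, ofReal_re, hzE] at this
      have h3 : |t - E| ^ s ≤ ‖(t : ℂ) - z‖ ^ s := Real.rpow_le_rpow (abs_nonneg _) h2 h0.le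
      have h4 : 0 ≤ ‖b‖ ^ s * (‖(t : ℂ) - a‖ ^ s)⁻¹ := by positivity
      calc ‖b‖ ^ s * (|t - E| ^ s * (‖(t : ℂ) - a‖ ^ s)⁻¹)
          = |t - E| ^ s * (‖b‖ ^ s * (‖(t : ℂ) - a‖ ^ s)⁻¹) := by ring
        _ ≤ _ := mul_le_mul_of_nonneg_right h3 h4
    calc ∫⁻ t, 5 * ENNReal.ofReal (‖Gr A (Wv (Function.update V x t) z) x y‖ ^ s) ∂ν
        = ENNReal.ofReal (‖b‖ ^ s) *
          (5 * ∫⁻ t : ℝ, ENNReal.ofReal (‖(t : ℂ) - a‖ ^ (-s)) ∂ν) := by
          simp only [e1]
          rw [lintegral_const_mul _ (by fun_prop), lintegral_const_mul _ (by fun_prop)]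
          ring
      _ ≤ ENNReal.ofReal (‖b‖ ^ s) *
          ∫⁻ t : ℝ, ENNReal.ofReal (|t - E| ^ s * ‖(t : ℂ) - a‖ ^ (-s)) ∂ν := by
          gcongr
          exact hdec a ha
      _ = ∫⁻ t : ℝ, ENNReal.ofReal (‖b‖ ^ s) *
          ENNReal.ofReal (|t - E| ^ s * ‖(t : ℂ) - a‖ ^ (-s)) ∂ν := by
          rw [lintegral_const_mul _ (by fun_prop)]
      _ ≤ _ := by
          refine lintegral_mono fun t => ?_
          simp only [Function.update_self]
          exact e2 t
  refine step1.trans ?_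
  have hAn : ∀ w, 0 ≤ A x w := by
    intro w
    rcases hA01 x w with h | h <;> rw [h]
    exact zero_le_one
  calc ∫⁻ V, ENNReal.ofReal (‖(V x : ℂ) - z‖ ^ s * ‖Gr A (Wv V z) x y‖ ^ s)
        ∂(Measure.pi fun _ : ι => ν)
      ≤ ∫⁻ V, ((if x = y then 1 else 0) + ∑ w, ENNReal.ofReal (A x w) *
          ENNReal.ofReal (‖Gr A (Wv V z) w y‖ ^ s)) ∂(Measure.pi fun _ : ι => ν) := by
        refine lintegral_mono fun V => ?_
        refine (ENNReal.ofReal_le_ofReal (res_eq_le hA hA01 hz h0 h1 V x y)).trans ?_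
        refine ENNReal.ofReal_add_le.trans (add_le_add ?_ ?_)
        · split_ifs <;> simp
        · rw [ENNReal.ofReal_sum_of_nonneg fun w _ => mul_nonneg (hAn w) (by positivity)]
          refine Finset.sum_le_sum fun w _ => ?_
          rw [ENNReal.ofReal_mul (hAn w)]
    _ = _ := by
        rw [lintegral_add_left measurable_const, lintegral_const, measure_univ, mul_one,
          lintegral_finset_sum _ fun w _ => (hm w).const_mul _]
        congr 1
        refine Finset.sum_congr rfl fun w _ => ?_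
        rw [lintegral_const_mul _ (hm w)]
        rfl

/-- **Exponential decay at large energies** -/
theorem fm_decay (hA : A.IsSymm) (hA01 : ∀ x y, A x y = 0 ∨ A x y = 1)
    (hrow : ∀ x, ∑ w, A x w ≤ 4) {ν : Measure ℝ}
    [IsProbabilityMeasure ν] {s : ℝ} (h0 : 0 < s) (h1 : s ≤ 1) {E : ℝ}
    (hdec : ∀ a : ℂ, 0 < a.im → 5 * ∫⁻ t : ℝ, ENNReal.ofReal (‖(t : ℂ) - a‖ ^ (-s)) ∂ν ≤
          ∫⁻ t : ℝ, ENNReal.ofReal (|t - E| ^ s * ‖(t : ℂ) - a‖ ^ (-s)) ∂ν)
    {z : ℂ} (hz : 0 < z.im) (hzE : z.re = E) (y : ι) (d : ι → ℕ) (hd0 : d y = 0)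
    (hd : ∀ x w, A x w ≠ 0 → d x ≤ d w + 1) (x : ι) :
    fm A ν z s x y ≤ ENNReal.ofReal ((4 / 5) ^ d x) := by
  classical
  set f : ι → ℝ := fun x => (fm A ν z s x y).toReal with hf
  have hfin : ∀ x, fm A ν z s x y ≠ ∞ := fun x => fm_lt_top hA hz h0 x y
  have hf0 : ∀ x, 0 ≤ f x := fun x => ENNReal.toReal_nonneg
  have hAn : ∀ x w, 0 ≤ A x w := by
    intro x w
    rcases hA01 x w with h | h <;> rw [h]
    exact zero_le_one
  have hrec : ∀ x, 5 * f x ≤ (if x = y then 1 else 0) + ∑ w, A x w * f w := by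
    intro x
    have h2 := fm_rec hA hA01 h0 h1 hdec hz hzE x y
    have h3 : ∀ w, fm A ν z s w y = ENNReal.ofReal (f w) := fun w =>
      (ENNReal.ofReal_toReal (hfin w)).symm
    simp only [h3] at h2
    have h4 : (if x = y then (1 : ℝ≥0∞) else 0) = ENNReal.ofReal (if x = y then 1 else 0) := by
      split_ifs <;> simp
    have hif : (0 : ℝ) ≤ (if x = y then 1 else 0) := by split_ifs <;> norm_num
    have h5 : ∑ w, ENNReal.ofReal (A x w) * ENNReal.ofReal (f w) =
        ENNReal.ofReal (∑ w, A x w * f w) := by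
      rw [ENNReal.ofReal_sum_of_nonneg fun w _ => mul_nonneg (hAn x w) (hf0 w)]
      exact Finset.sum_congr rfl fun w _ => (ENNReal.ofReal_mul (hAn x w)).symm
    rw [h4, h5, ← ENNReal.ofReal_add hif (Finset.sum_nonneg fun w _ => mul_nonneg (hAn x w)
      (hf0 w)), show (5 : ℝ≥0∞) = ENNReal.ofReal 5 by simp,
      ← ENNReal.ofReal_mul (by norm_num)] at h2
    exact (ENNReal.ofReal_le_ofReal_iff (add_nonneg hif (Finset.sum_nonneg fun w _ =>
      mul_nonneg (hAn x w) (hf0 w)))).1 h2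
  -- global bound
  have hne : (Finset.univ : Finset ι).Nonempty := ⟨y, Finset.mem_univ y⟩
  obtain ⟨x₀, -, hx₀⟩ := Finset.exists_max_image Finset.univ f hne
  have hsum : ∀ (x : ι) (m : ℝ), 0 ≤ m → (∀ w, A x w ≠ 0 → f w ≤ m) →
      ∑ w, A x w * f w ≤ 4 * m := by
    intro x m hm h
    calc ∑ w, A x w * f w ≤ ∑ w, A x w * m := by
          refine Finset.sum_le_sum fun w _ => ?_
          by_cases hw : A x w = 0
          · rw [hw]; simp
          · exact mul_le_mul_of_nonneg_left (h w hw) (hAn x w)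
      _ = (∑ w, A x w) * m := (Finset.sum_mul _ _ _).symm
      _ ≤ 4 * m := mul_le_mul_of_nonneg_right (hrow x) hm
  have hS : f x₀ ≤ 1 := by
    have h2 := hrec x₀
    have h3 := hsum x₀ (f x₀) (hf0 x₀) fun w _ => hx₀ w (Finset.mem_univ w)
    have h4 : (if x₀ = y then (1 : ℝ) else 0) ≤ 1 := by split_ifs <;> norm_num
    linarith
  have key : ∀ n : ℕ, ∀ x, n ≤ d x → f x ≤ (4 / 5 : ℝ) ^ n := by
    intro n
    induction n with
    | zero =>
      intro x _
      rw [pow_zero]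
      exact (hx₀ x (Finset.mem_univ x)).trans hS
    | succ n ih =>
      intro x hx
      have hxy : x ≠ y := by
        rintro rfl
        omega
      have h2 := hrec x
      rw [if_neg hxy, zero_add] at h2
      have h3 := hsum x ((4 / 5 : ℝ) ^ n) (by positivity) fun w hw => ih w (by
        have := hd x w hw
        omega)
      rw [pow_succ]
      linarith
  have h2 := key (d x) x le_rfl
  rw [← ENNReal.ofReal_toReal (hfin x)]
  exact ENNReal.ofReal_le_ofReal h2

end P365L.X5
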